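import Vale.Agent.P228.Frac.Global

/-!
The Hilbert-Smith conjecture, in every dimension, for actions whose elements are
`o(|z - x| ^ (n / (n + 2)))` in charts at every point of some dense connected open set.
-/

namespace Vale.Agent.Results.P228.CriticalHolder

open scoped Topology

theorem result (n : ℕ) {M G : Type*} [TopologicalSpace M] [T2Space M] [ConnectedSpace M]
    [ChartedSpace (EuclideanSpace ℝ (Fin n)) M]
    [Group G] [TopologicalSpace G] [IsTopologicalGroup G] [T2Space G] [LocallyCompactSpace G]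
    [MulAction G M] [ContinuousSMul G M] [FaithfulSMul G M]
    (Λ : Set M) (hΛo : IsOpen Λ) (hΛc : IsPreconnected Λ) (hΛd : Dense Λ)
    (hact : ∀ g : G, ∀ e ∈ atlas (EuclideanSpace ℝ (Fin n)) M, ∀ x ∈ e.source, x ∈ Λ →
      g • x ∈ e.source → g • x ∈ Λ →
        (fun z => e (g • e.symm z) - e (g • x)) =o[𝓝 (e x)]
          fun z => ‖z - e x‖ ^ ((n : ℝ) / ((n : ℝ) + 2))) :
    (∃ U ∈ 𝓝 (1 : G), ∀ H : Subgroup G, (H : Set G) ⊆ U → IsCompact (H : Set G) →
        IsTotallyDisconnected (H : Set G) → H = ⊥) ∧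
      (TotallyDisconnectedSpace G → DiscreteTopology G) ∧
      (∀ (p : ℕ) [Fact p.Prime] (ι : Multiplicative ℤ_[p] →* G),
        Continuous ι → ¬ Function.Injective ι) :=
  have h : Vale.Agent.P228.Frac.IsCriticalAction (EuclideanSpace ℝ (Fin n)) G M Λ :=
    fun g e he x hx hxΛ hgx hgΛ => by
      simpa [Vale.Agent.P228.Frac.critExp] using hact g e he x hx hxΛ hgx hgΛ
  ⟨Vale.Agent.P228.Frac.small_subgroups_trivial hΛo hΛc hΛd h,
    fun _ => Vale.Agent.P228.Frac.discrete_of_totallyDisconnected hΛo hΛc hΛd h,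
    fun p _ ι hι => Vale.Agent.P228.Frac.no_padic_subgroup hΛo hΛc hΛd h p ι hι⟩

end Vale.Agent.Results.P228.CriticalHolder
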