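import Vale.Agent.P228.Var.Global
import Vale.Agent.P228.Var.Examples

/-!
The Hilbert-Smith conjecture, in every dimension, for actions whose elements have, in charts,
locally vanishing sums of `(n + 2)`-th powers of oscillations over separated sets, away from a
closed set with connected dense complement.
-/

namespace Vale.Agent.Results.P228.VanishingVariation

open Metric Filter
open scoped Topology ENNReal

theorem result (n : ℕ) {M G : Type*} [TopologicalSpace M] [T2Space M] [ConnectedSpace M]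
    [ChartedSpace (EuclideanSpace ℝ (Fin n)) M]
    [Group G] [TopologicalSpace G] [IsTopologicalGroup G] [T2Space G] [LocallyCompactSpace G]
    [MulAction G M] [ContinuousSMul G M] [FaithfulSMul G M]
    (Λ : Set M) (hΛo : IsOpen Λ) (hΛc : IsPreconnected Λ) (hΛd : Dense Λ) :
    ((∀ g : G, ∀ e ∈ atlas (EuclideanSpace ℝ (Fin n)) M, ∀ x ∈ e.source, x ∈ Λ → g • x ∈ e.source → g • x ∈ Λ →
      ∃ r > (0 : ℝ), Tendsto (fun δ : ℝ =>
        ⨆ (S : Finset (EuclideanSpace ℝ (Fin n))) (_ : ↑S ⊆ closedBall (e x) r)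
          (_ : (S : Set (EuclideanSpace ℝ (Fin n))).Pairwise fun a b => δ ≤ dist a b),
          ∑ z ∈ S, (⨆ w ∈ ball z δ, edist (e (g • e.symm w)) (e (g • e.symm z))) ^ (n + 2))
        (𝓝[>] 0) (𝓝 0)) →
      (∃ U ∈ 𝓝 (1 : G), ∀ H : Subgroup G, (H : Set G) ⊆ U → IsCompact (H : Set G) →
          IsTotallyDisconnected (H : Set G) → H = ⊥) ∧
        (TotallyDisconnectedSpace G → DiscreteTopology G) ∧
        (∀ (p : ℕ) [Fact p.Prime] (ι : Multiplicative ℤ_[p] →* G),
          Continuous ι → ¬ Function.Injective ι)) ∧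
    ((∀ g : G, ∀ e ∈ atlas (EuclideanSpace ℝ (Fin n)) M, ∀ x ∈ e.source, x ∈ Λ → g • x ∈ e.source → g • x ∈ Λ →
      ∃ r > (0 : ℝ), ∃ m : ℝ≥0∞, m ≠ ⊤ ∧ ∀ᶠ δ in 𝓝[>] (0 : ℝ),
        ∀ S : Finset (EuclideanSpace ℝ (Fin n)), ↑S ⊆ closedBall (e x) r →
          ((S : Set (EuclideanSpace ℝ (Fin n))).Pairwise fun a b => δ ≤ dist a b) →
          ∑ z ∈ S, (⨆ w ∈ ball z δ, edist (e (g • e.symm w)) (e (g • e.symm z))) ^ n ≤ m) →
      (∃ U ∈ 𝓝 (1 : G), ∀ H : Subgroup G, (H : Set G) ⊆ U → IsCompact (H : Set G) →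
          IsTotallyDisconnected (H : Set G) → H = ⊥) ∧
        (TotallyDisconnectedSpace G → DiscreteTopology G) ∧
        (∀ (p : ℕ) [Fact p.Prime] (ι : Multiplicative ℤ_[p] →* G),
          Continuous ι → ¬ Function.Injective ι)) := by
  have main : Vale.Agent.P228.Var.IsVarAction (EuclideanSpace ℝ (Fin n)) G M Λ →
      (∃ U ∈ 𝓝 (1 : G), ∀ H : Subgroup G, (H : Set G) ⊆ U → IsCompact (H : Set G) →
          IsTotallyDisconnected (H : Set G) → H = ⊥) ∧
        (TotallyDisconnectedSpace G → DiscreteTopology G) ∧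
        (∀ (p : ℕ) [Fact p.Prime] (ι : Multiplicative ℤ_[p] →* G),
          Continuous ι → ¬ Function.Injective ι) := fun h =>
    ⟨Vale.Agent.P228.Var.small_subgroups_trivial hΛo hΛc hΛd h,
      fun _ => Vale.Agent.P228.Var.discrete_of_totallyDisconnected hΛo hΛc hΛd h,
      fun p _ ι hι => Vale.Agent.P228.Var.no_padic_subgroup hΛo hΛc hΛd h p ι hι⟩
  refine ⟨fun hact => main fun g e he x hx hxΛ hgx hgΛ => ?_, fun hact => main fun g e he x hx hxΛ hgx hgΛ => ?_⟩
  · obtain ⟨r, hr, h⟩ := hact g e he x hx hxΛ hgx hgΛ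
    refine ⟨r, hr, ?_⟩
    change Tendsto (Vale.Agent.P228.Var.var _ _) _ _
    unfold Vale.Agent.P228.Var.var Vale.Agent.P228.Var.osc
    simpa only [finrank_euclideanSpace_fin] using h
  · obtain ⟨r, hr, m, hm, h⟩ := hact g e he x hx hxΛ hgx hgΛ
    have hdom : ∀ᶠ z in 𝓝 (e x), z ∈ e.target ∧ g • e.symm z ∈ e.source := by
      refine (e.open_target.eventually_mem (e.map_source hx)).and ?_
      have hc : ContinuousAt (fun z => g • e.symm z) (e x) :=
        (e.continuousAt_symm (e.map_source hx)).const_smul g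
      exact hc.eventually (e.open_source.mem_nhds (by simpa [e.left_inv hx] using hgx))
    obtain ⟨R, hR, hsub⟩ := Metric.nhds_basis_closedBall.mem_iff.1 hdom
    have hc : ContinuousOn (fun z => e (g • e.symm z)) (closedBall (e x) R) :=
      e.continuousOn.comp ((e.continuousOn_symm.mono fun z hz => (hsub hz).1).const_smul g)
        fun z hz => (hsub hz).2
    refine ⟨min r (R / 2), by positivity, Vale.Agent.P228.Var.smallVar_of_bounded
      (by linarith [min_le_right r (R / 2)]) hc ⟨m, hm, ?_⟩⟩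
    filter_upwards [h] with δ hδ S hS hs
    rw [finrank_euclideanSpace_fin]
    exact hδ S (hS.trans (closedBall_subset_closedBall (min_le_left _ _))) hs

end Vale.Agent.Results.P228.VanishingVariation
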